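import Vale.Agent.P144D.I.SecA.Sum

/-!
The sum over the strings with signs selects the boundary condition.
-/

namespace Vale.Agent.P144Z

open Finset Matrix I1 DH1 Vale.Agent.P144

namespace ISecA

variable {M : ℕ} [NeZero M] {Λ : Finset (ℤ × ℤ)} {T : ℕ}

theorem zd_sub_cn {v : ℤ × ℤ} {K : ℕ} (h : zd v 0 ≤ K) (k : Fin 4) : zd (v - cn k) 0 ≤ K + 1 := by
  rw [zd_le_iff, abs_le, abs_le] at h ⊢
  fin_cases k <;> simp [cn] <;> omega

theorem touch_le (hΛ : ∀ v ∈ Λ, zd v 0 ≤ T) {v : ℤ × ℤ} (h : Touch Λ v) : zd v 0 ≤ T + 1 := by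
  obtain ⟨k, hk⟩ := h
  have h1 := hΛ _ hk
  rw [zd_le_iff, abs_le, abs_le] at h1 ⊢
  fin_cases k <;> simp [cn] at h1 <;> omega

omit [NeZero M] in
theorem touchT_of {v : ℤ × ℤ} (h : Touch Λ v) : TouchT (Λ.image (prj M)) (prj M v) := by
  obtain ⟨k, hk⟩ := h
  exact ⟨k, G.prj_sub v (cn k) ▸ mem_image_of_mem _ hk⟩

omit [NeZero M] in
theorem of_touchT {y : Tor M} (h : TouchT (Λ.image (prj M)) y) : ∃ v, Touch Λ v ∧ y = prj M v := by
  obtain ⟨k, hk⟩ := h
  obtain ⟨v, hv, e⟩ := mem_image.1 hk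
  exact ⟨v + cn k, ⟨k, by rwa [add_sub_cancel_right]⟩, by rw [G.prj_add, e, sub_add_cancel]⟩

theorem gm_hedge (hΛ : ∀ v ∈ Λ, zd v 0 ≤ T) (hM : 4 * (T + 2) ≤ M) (b : ℤ × ℤ → Bool)
    {v : ℤ × ℤ} (hv : zd v 0 ≤ T + 1) (a : Fin 4) :
    gm (Λ.image (prj M)) (fun u => b (lft u)) (hedge (prj M v, a)) = true ↔
      RemE Λ v a ∧ WallE b v a := by
  have h1 : ∀ k, prj M v - prj M (cn k) ∈ Λ.image (prj M) ↔ v - cn k ∈ Λ := fun k => by
    rw [← G.prj_sub]
    exact mem_image_iff (K := T + 2) (fun x hx => (hΛ x hx).trans (by omega)) (by omega)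
      (zd_sub_cn hv k)
  have h2 : ∀ k, lft (prj M v - prj M (cn k)) = v - cn k := fun k => by
    have h3 := zd_le_iff.1 (zd_sub_cn hv k)
    rw [← G.prj_sub]
    exact lft_prj (by omega) (by omega)
  show (xor (b (lft (hedge (prj M v, a)).1)) (b (lft (oth (hedge (prj M v, a))))) &&
    !decide ((hedge (prj M v, a)).1 ∈ Λ.image (prj M) ∨
      oth (hedge (prj M v, a)) ∈ Λ.image (prj M))) = true ↔ _
  unfold RemE WallE
  rcases faces (prj M v) a with ⟨e1, e2⟩ | ⟨e1, e2⟩ <;> simp only [e1, e2, h1, h2] <;>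
    cases b (v - cn (a - 1)) <;> cases b (v - cn a) <;> simp [and_comm]

end ISecA

open ISecA in
/-- The sum over the strings to the holes with signs selects the boundary condition. -/
theorem secA : SecA := by
  classical
  intro M _ Λ T r H k a hs x e b hH hc hx ht hw hM
  set I := Λ.image (prj M) with hI
  set β : Tor M → Bool := fun u => b (lft u) with hβ
  have hi : Function.Injective fun i => (mkS M x e i).1 := fun i j h =>
    hx (prj_inj (touch_le hH.box (ht i).1) (touch_le hH.box (ht j).1) (by omega) h)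
  obtain ⟨κ, hκ, h1⟩ := key I β (mkS M x e) (fun i j h => hi (congrArg Prod.fst h))
    (fun i => touchT_of (ht i).1) (by
      rintro ⟨y, c⟩ hy
      obtain ⟨v, hv, rfl⟩ := of_touchT hy
      rw [gm_hedge hH.box hM b (touch_le hH.box hv)]
      constructor
      · rintro ⟨h2, h3⟩
        obtain ⟨i, rfl, rfl⟩ := (hw v c hv h2).1 h3
        exact ⟨i, rfl⟩
      · rintro ⟨i, h2⟩
        obtain ⟨h3, rfl⟩ := Prod.ext_iff.1 h2
        obtain rfl := prj_inj (touch_le hH.box hv) (touch_le hH.box (ht i).1) (by omega) h3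
        exact ⟨(ht i).2, (hw _ _ hv (ht i).2).2 ⟨i, rfl, rfl⟩⟩)
  have hsec : ∀ θ (e : Tor M × Fin 2), e.1 ∈ I ∨ oth e ∈ I → sec M θ e = 1 := fun θ e he => by
    have h2 : sec M θ e * pwI I e = pwI I e :=
      congrFun (sec_mul_pw (M := M) hH.box (by omega) θ) e
    rwa [pwI_pos he, mul_one] at h2
  have ha : prj M a ∉ I :=
    UL.not_mem_image hH.box (by omega) hH.a_le (hH.a_out a (by simp [UL.zd_self]))
  have hh : ∀ i, prj M (hs i) ∉ I := fun i =>
    UL.not_mem_image hH.box (by omega) (hH.h_le i) (hH.h_out i _ (by simp [UL.zd_self]))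
  refine ⟨⟨fun S => ∏ i ∈ S, gs I β a (hs i) * sp (β (prj M (hs i))), gs I β a, κ * 2 ^ H,
    fun S => ?_, gs_sign I β a, ?_, fun q O n z Φ => ?_⟩, nOf I β, fun e' he => pwI_pos (nOf_pr he),
    dgr_iff hi ?_, ?_⟩
  · refine Finset.prod_induction _ (fun c : ℝ => c = 1 ∨ c = -1) ?_ (Or.inl rfl) fun i _ => ?_
    · rintro a b (rfl | rfl) (rfl | rfl) <;> simp
    · rcases gs_sign I β a (hs i) with h | h <;> rw [h] <;> cases β (prj M (hs i)) <;> simp [sp]
  · rw [abs_mul, hκ, one_mul, abs_of_pos (by positivity)]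
  · rw [sum_ZJ I β hsec (mkS M x e) h1 a hs ha hh hc q O z Φ]
    exact congrArg _ (sum_congr rfl fun σ _ => if_congr Iff.rfl rfl rfl)
  · rw [h1 _ fun e => nOf_pr, xor_gm, cw_dom, mul_one]
    exact fun h => zero_ne_one (by rw [← hκ, h, abs_zero])
  · rw [← sum_wJ I β k]
    exact sum_congr rfl fun σ _ => if_congr Iff.rfl rfl rfl

end Vale.Agent.P144Z
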