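import Vale.Agent.P144D.I.SecA.Key

/-!
Contour sums with insertions as sums over spins.
-/

namespace Vale.Agent.P144Z.ISecA

open Finset Matrix I1 DH1 Vale.Agent.P144

variable {M : ℕ}

/-- The walls of `σ` and `β` agree on the removed edges. -/
def Ag (I : Finset (Tor M)) (β σ : Tor M → Bool) : Prop :=
  ∀ e : Tor M × Fin 2, ¬ (e.1 ∈ I ∨ oth e ∈ I) → dom σ e = dom β e

theorem pwI_pos {I : Finset (Tor M)} {e : Tor M × Fin 2} (h : e.1 ∈ I ∨ oth e ∈ I) :
    pwI I e = 1 := by
  simp only [Reg.pw, Bool.false_eq_true, if_false, if_pos h]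

theorem pwI_neg {I : Finset (Tor M)} {e : Tor M × Fin 2} (h : ¬ (e.1 ∈ I ∨ oth e ∈ I)) :
    pwI I e = 0 := by
  simp only [Reg.pw, Bool.false_eq_true, if_false, if_neg h]

theorem dom_xor (σ τ : Tor M → Bool) (e : Tor M × Fin 2) :
    dom (fun u => xor (σ u) (τ u)) e = xor (dom σ e) (dom τ e) := by
  show xor (xor (σ e.1) (τ e.1)) (xor (σ (oth e)) (τ (oth e))) =
    xor (xor (σ e.1) (σ (oth e))) (xor (τ e.1) (τ (oth e)))
  cases σ e.1 <;> cases τ e.1 <;> cases σ (oth e) <;> cases τ (oth e) <;> rfl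

theorem Ag.conn {I : Finset (Tor M)} {β σ : Tor M → Bool} (h : Ag I β σ) {u w : Tor M}
    (hc : OutConn I u w) (hw : σ w = β w) : σ u = β u := by
  have h1 : Cst I fun u => xor (σ u) (β u) := fun e h1 h2 =>
    dom_eq_false.1 ((dom_xor σ β e).trans (by rw [h e (not_or.2 ⟨h1, h2⟩), Bool.xor_self]))
  have h2 : xor (σ u) (β u) = xor (σ w) (β w) := h1.conn hc
  rw [hw, Bool.xor_self] at h2
  revert h2
  cases σ u <;> cases β u <;> simp

theorem ag_of_out {I : Finset (Tor M)} {β σ : Tor M → Bool} (h : ∀ u, u ∉ I → σ u = β u) :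
    Ag I β σ := fun e he => by
  rw [not_or] at he
  show xor (σ e.1) (σ (oth e)) = xor (β e.1) (β (oth e))
  rw [h _ he.1, h _ he.2]

variable [NeZero M]

theorem wt_sec_dom (θ : Bool × Bool) (β : Tor M → Bool) : wt (sec M θ) 1 (dom β) = 1 := by
  rw [I1.wt_sec, per0_dom, per1_dom]
  simp

open Classical in
theorem sum_closed (I : Finset (Tor M)) (β : Tor M → Bool)
    (hsec : ∀ θ (e : Tor M × Fin 2), e.1 ∈ I ∨ oth e ∈ I → sec M θ e = 1)
    (f : (Tor M × Fin 2 → Bool) → ℝ) :
    (∑ n : Tor M × Fin 2 → Bool, if ∀ e, n e = true → e.1 ∈ I ∨ oth e ∈ I then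
      (cw fun e => xor (n e) (gm I β e)) * f n else 0) =
      1 / 2 * ∑ σ : Tor M → Bool, if Ag I β σ then f (nOf I σ) else 0 := by
  let F : (Tor M × Fin 2 → Bool) → ℝ := fun m =>
    if ∀ e : Tor M × Fin 2, ¬ (e.1 ∈ I ∨ oth e ∈ I) → m e = dom β e then
      f fun e => m e && decide (e.1 ∈ I ∨ oth e ∈ I) else 0
  have h := I1.sum_sec F
  have h1 : ∀ θ m, (cw m * wt (sec M θ) 1 m) • F m = cw m * F m := by
    intro θ m
    simp only [F]
    split_ifs with hm
    · have : wt (sec M θ) 1 m = wt (sec M θ) 1 (dom β) := by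
        refine prod_congr rfl fun e _ => ?_
        by_cases he : e.1 ∈ I ∨ oth e ∈ I
        · rw [hsec θ e he]
          simp
        · rw [hm e he]
      rw [this, wt_sec_dom, mul_one, smul_eq_mul]
    · simp
  have h2 : (∑ n : Tor M × Fin 2 → Bool, (cw fun e => xor (n e) (gm I β e)) *
      F fun e => xor (n e) (gm I β e)) = ∑ m, cw m * F m :=
    Equiv.sum_comp (Function.Involutive.toPerm
      (fun (n : Tor M × Fin 2 → Bool) e => xor (n e) (gm I β e)) fun n => by
        funext e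
        simp) fun m => cw m * F m
  simp only [h1, sum_const, card_univ, Fintype.card_prod, Fintype.card_bool, nsmul_eq_mul,
    smul_eq_mul, ← h2] at h
  have h3 : (∑ σ : Tor M → Bool, if Ag I β σ then f (nOf I σ) else 0) = ∑ σ, F (dom σ) :=
    sum_congr rfl fun σ _ => if_congr Iff.rfl rfl rfl
  rw [h3]
  push_cast at h
  refine Eq.trans (b := ∑ n : Tor M × Fin 2 → Bool, (cw fun e => xor (n e) (gm I β e)) *
    F fun e => xor (n e) (gm I β e)) (sum_congr rfl fun n _ => ?_) (by linarith)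
  have h4 : (∀ e : Tor M × Fin 2, ¬ (e.1 ∈ I ∨ oth e ∈ I) → xor (n e) (gm I β e) = dom β e) ↔
      ∀ e, n e = true → e.1 ∈ I ∨ oth e ∈ I := by
    refine forall_congr' fun e => ?_
    unfold gm
    by_cases he : e.1 ∈ I ∨ oth e ∈ I
    · simp [he]
    · rw [decide_eq_false he]
      cases n e <;> cases dom β e <;> simp [he]
  simp only [F, h4]
  split_ifs with hn
  · refine congrArg₂ (· * ·) rfl (congrArg f (funext fun e => ?_))
    by_cases he : e.1 ∈ I ∨ oth e ∈ I
    · rw [gm_false β he, decide_eq_true he]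
      simp
    · rw [decide_eq_false he, Bool.and_false]
      exact Bool.eq_false_iff.2 fun h => he (hn e h)
  · rw [mul_zero]

theorem wt_nOf {I : Finset (Tor M)} {β σ : Tor M → Bool} (h : Ag I β σ) {G : Gauge M}
    (hG : IsSign G) : wt G 1 (nOf I σ) = wt G 1 (gm I β) * wt G 1 (dom σ) := by
  unfold wt
  rw [← prod_mul_distrib]
  refine prod_congr rfl fun e _ => ?_
  unfold nOf gm
  by_cases he : e.1 ∈ I ∨ oth e ∈ I
  · rw [decide_eq_true he]
    simp
  · rw [decide_eq_false he, h e he]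
    rcases hG e with h1 | h1 <;> cases dom β e <;> simp [h1]

open Classical in
theorem ZJ_eq (I : Finset (Tor M)) (β : Tor M → Bool)
    (hsec : ∀ θ (e : Tor M × Fin 2), e.1 ∈ I ∨ oth e ∈ I → sec M θ e = 1) {k : ℕ}
    (s : Fin k → Tor M × Fin 4) {κ : ℝ} (hκ : ∀ n : Tor M × Fin 2 → Bool,
      (∀ e, n e = true → e.1 ∈ I ∨ oth e ∈ I) → cwI s n = κ * cw fun e => xor (n e) (gm I β e))
    (q : Par) {G : Gauge M} (hG : IsSign G) (O : Fin k → (Tor M × Fin 2 → Bool) → ℝ)
    (Φ : (Tor M × Fin 2 → Bool) → ℝ) :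
    ZJ q (pwI I * G) s O Φ = κ / 2 * ∑ σ : Tor M → Bool, wt G 1 (gm I β) * wt G 1 (dom σ) *
      if Ag I β σ then wJ q I O σ * Φ (nOf I σ) else 0 := by
  have h := sum_closed I β hsec fun n =>
    wt G 1 n * (wt (pwI I) q.x n * Real.exp (uint q n) * (∏ i, O i n) * Φ n)
  have h1 : ZJ q (pwI I * G) s O Φ = κ * ∑ n : Tor M × Fin 2 → Bool,
      if ∀ e, n e = true → e.1 ∈ I ∨ oth e ∈ I then (cw fun e => xor (n e) (gm I β e)) *
        (wt G 1 n * (wt (pwI I) q.x n * Real.exp (uint q n) * (∏ i, O i n) * Φ n)) else 0 := by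
    rw [mul_sum]
    refine sum_congr rfl fun n _ => ?_
    rw [mul_comm (pwI I), wt_mul]
    split_ifs with hn
    · rw [hκ n hn]
      ring
    · simp only [not_forall] at hn
      obtain ⟨e, h1, h2⟩ := hn
      have : wt (pwI I) q.x n = 0 := prod_eq_zero (mem_univ e) (by
        rw [if_pos h1, pwI_neg h2, mul_zero])
      rw [this]
      ring
  rw [h1, h, ← mul_assoc, mul_one_div]
  refine congrArg _ (sum_congr rfl fun σ _ => ?_)
  split_ifs with hσ
  · rw [wt_nOf hσ hG]
    rfl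
  · rw [mul_zero]

theorem sum_flip' (h : (Tor M → Bool) → ℝ) (hh : ∀ σ, h (fun x => !σ x) = h σ) (a : Tor M)
    (c : Bool) : ∑ σ, h σ = 2 * ∑ σ, if σ a = c then h σ else 0 := by
  have e := Equiv.sum_comp (Function.Involutive.toPerm
    (fun (s : Tor M → Bool) x => !s x) fun s => by simp) fun σ => if σ a = c then h σ else 0
  rw [two_mul]
  nth_rewrite 1 [← e]
  rw [← sum_add_distrib]
  refine sum_congr rfl fun σ _ => ?_
  show h σ = (if (!σ a) = c then h (fun x => !σ x) else 0) + _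
  rw [hh]
  cases σ a <;> cases c <;> simp

theorem wt_sign {G : Gauge M} (hG : IsSign G) (n : Tor M × Fin 2 → Bool) :
    wt G 1 n = 1 ∨ wt G 1 n = -1 := by
  refine Finset.prod_induction _ (fun c : ℝ => c = 1 ∨ c = -1) ?_ (Or.inl rfl) fun e _ => ?_
  · rintro a b (rfl | rfl) (rfl | rfl) <;> simp
  · split_ifs
    · rw [one_mul]
      exact hG e
    · exact Or.inl rfl

/-- The sign of the string from `a` to `v` on the walls of `β` outside. -/
noncomputable def gs (I : Finset (Tor M)) (β : Tor M → Bool) (a v : ℤ × ℤ) : ℝ :=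
  wt (strG M a v) 1 (gm I β) * sp (β (prj M a))

theorem gs_sign (I : Finset (Tor M)) (β : Tor M → Bool) (a : ℤ × ℤ) : IsSign (gs I β a) := by
  intro v
  unfold gs
  rcases wt_sign (strG_sign a v) (gm I β) with h | h <;> rw [h] <;> cases β (prj M a) <;> simp [sp]

theorem sum_hole (I : Finset (Tor M)) (β σ : Tor M → Bool) {H : ℕ} (a : ℤ × ℤ)
    (hs : Fin H → ℤ × ℤ) (ha : σ (prj M a) = β (prj M a)) :
    ∑ S : Finset (Fin H), (∏ i ∈ S, gs I β a (hs i) * sp (β (prj M (hs i)))) *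
      (wt (holeG M a hs S) 1 (gm I β) * wt (holeG M a hs S) 1 (dom σ)) =
      if ∀ i, σ (prj M (hs i)) = β (prj M (hs i)) then 2 ^ H else 0 := by
  simp only [holeG, wt_prod, wt_strG_dom, ← prod_mul_distrib]
  have e : ∀ i, gs I β a (hs i) * sp (β (prj M (hs i))) * (wt (strG M a (hs i)) 1 (gm I β) *
      (sp (σ (prj M a)) * sp (σ (prj M (hs i))))) =
      sp (σ (prj M (hs i))) * sp (β (prj M (hs i))) := by
    intro i
    unfold gs
    rw [ha]
    rcases wt_sign (strG_sign a (hs i)) (gm I β) with h | h <;> rw [h] <;>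
      linear_combination sp (σ (prj M (hs i))) * sp (β (prj M (hs i))) * sp_mul_self (β (prj M a))
  simp only [e]
  rw [← powerset_univ, ← prod_one_add]
  split_ifs with h
  · simp only [h, sp_mul_self]
    rw [prod_const, card_univ, Fintype.card_fin]
    norm_num
  · simp only [not_forall] at h
    obtain ⟨i, hi⟩ := h
    refine prod_eq_zero (mem_univ i) ?_
    revert hi
    cases σ (prj M (hs i)) <;> cases β (prj M (hs i)) <;> simp [sp]

open Classical in
theorem sum_ZJ (I : Finset (Tor M)) (β : Tor M → Bool)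
    (hsec : ∀ θ (e : Tor M × Fin 2), e.1 ∈ I ∨ oth e ∈ I → sec M θ e = 1) {k : ℕ}
    (s : Fin k → Tor M × Fin 4) {κ : ℝ} (hκ : ∀ n : Tor M × Fin 2 → Bool,
      (∀ e, n e = true → e.1 ∈ I ∨ oth e ∈ I) → cwI s n = κ * cw fun e => xor (n e) (gm I β e))
    {H : ℕ} (a : ℤ × ℤ) (hs : Fin H → ℤ × ℤ) (ha : prj M a ∉ I) (hh : ∀ i, prj M (hs i) ∉ I)
    (hc : ∀ u, u ∉ I → OutConn I u (prj M a) ∨ ∃ i, OutConn I u (prj M (hs i))) (q : Par)
    (O : Fin k → (Tor M × Fin 2 → Bool) → ℝ) {n : ℕ} (z : Fin n → ℤ × ℤ)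
    (Φ : (Tor M × Fin 2 → Bool) → ℝ) :
    ∑ S : Finset (Fin H), (∏ i ∈ S, gs I β a (hs i) * sp (β (prj M (hs i)))) *
      ZJ q (pwI I * (spinG M a z * holeG M a hs S)) s O Φ =
      κ * 2 ^ H * (∏ i, gs I β a (z i)) * ∑ σ : Tor M → Bool, if ∀ u, u ∉ I → σ u = β u then
        (∏ i, sp (σ (prj M (z i)))) * wJ q I O σ * Φ (nOf I σ) else 0 := by
  have h1 : ∀ S, ZJ q (pwI I * (spinG M a z * holeG M a hs S)) s O Φ = κ * ∑ σ : Tor M → Bool,
      if σ (prj M a) = β (prj M a) then wt (spinG M a z * holeG M a hs S) 1 (gm I β) *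
        wt (spinG M a z * holeG M a hs S) 1 (dom σ) *
        (if Ag I β σ then wJ q I O σ * Φ (nOf I σ) else 0) else 0 := by
    intro S
    rw [ZJ_eq I β hsec s hκ q (G := spinG M a z * holeG M a hs S) (H3.sign_mul (spinG_sign a z)
      (H3.sign_prod _ fun i => strG_sign a (hs i))), sum_flip' _ _ (prj M a) (β (prj M a)),
      ← mul_assoc, div_mul_cancel₀ _ two_ne_zero]
    intro σ
    have e : nOf I (fun x => !σ x) = nOf I σ := by
      funext e
      unfold nOf
      rw [dom_not]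
    have e2 : Ag I β (fun x => !σ x) ↔ Ag I β σ := by simp only [Ag, dom_not]
    simp only [wJ, e, e2, dom_not]
  simp only [h1, mul_sum]
  rw [sum_comm]
  refine sum_congr rfl fun σ _ => ?_
  by_cases h2 : σ (prj M a) = β (prj M a)
  · have h3 := sum_hole I β σ a hs h2
    have h4 : wt (spinG M a z) 1 (gm I β) * wt (spinG M a z) 1 (dom σ) =
        (∏ i, gs I β a (z i)) * ∏ i, sp (σ (prj M (z i))) := by
      simp only [spinG, wt_prod, wt_strG_dom, ← prod_mul_distrib, gs, h2, mul_assoc]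
    simp only [if_pos h2, wt_mul]
    refine Eq.trans (b := κ * (wt (spinG M a z) 1 (gm I β) * wt (spinG M a z) 1 (dom σ)) *
      (if Ag I β σ then wJ q I O σ * Φ (nOf I σ) else 0) *
      if ∀ i, σ (prj M (hs i)) = β (prj M (hs i)) then 2 ^ H else 0) ?_ ?_
    · rw [← h3, mul_sum]
      exact sum_congr rfl fun S _ => by ring
    · rw [h4]
      by_cases h5 : ∀ u, u ∉ I → σ u = β u
      · rw [if_pos h5, if_pos (ag_of_out h5), if_pos fun i => h5 _ (hh i)]
        ring
      · rw [if_neg h5]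
        split_ifs with h6 h7
        · refine (h5 fun u hu => ?_).elim
          rcases hc u hu with h8 | ⟨i, h8⟩
          · exact h6.conn h8 h2
          · exact h6.conn h8 (h7 i)
        all_goals simp
  · rw [if_neg fun h : ∀ u, u ∉ I → σ u = β u => h2 (h _ ha)]
    simp [h2]

open Classical in
theorem sum_wJ (I : Finset (Tor M)) (β : Tor M → Bool) (k : ℕ) :
    (∑ σ : Tor M → Bool, if ∀ u, u ∉ I → σ u = β u then wJ par0 I (1 : Fin k → _) σ else 0) =
      Yn I (tc • pwI I) (nOf I β) := by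
  rw [← Equiv.sum_comp (Function.Involutive.toPerm
    (fun (τ : Tor M → Bool) u => xor (β u) (τ u)) fun τ => by
      funext u
      simp)]
  refine sum_congr rfl fun τ _ => ?_
  show (if ∀ u, u ∉ I → xor (β u) (τ u) = β u then
    wJ par0 I (1 : Fin k → _) (fun u => xor (β u) (τ u)) else 0) = _
  have h1 : (∀ u, u ∉ I → xor (β u) (τ u) = β u) ↔ ∀ u, u ∉ I → τ u = false :=
    forall₂_congr fun u _ => by cases β u <;> cases τ u <;> simp
  simp only [h1]
  split_ifs with h
  · have e : nOf I (fun u => xor (β u) (τ u)) = fun e => xor (nOf I β e) (dom τ e) := by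
      funext e
      unfold nOf
      rw [dom_xor]
      by_cases he : e.1 ∈ I ∨ oth e ∈ I
      · rw [decide_eq_true he]
        simp
      · rw [decide_eq_false he, dom_eq_false.2 ((h _ (not_or.1 he).1).trans
          (h _ (not_or.1 he).2).symm)]
        simp
    unfold wJ
    rw [I1.uint_par0, Real.exp_zero, mul_one, e]
    simp only [Pi.one_apply, prod_const_one, mul_one]
    exact prod_congr rfl fun e _ => by simp [par0]
  · rfl

end Vale.Agent.P144Z.ISecA
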