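import Vale.Agent.P144D.I.Defs
import Vale.Agent.P144D.H.FreeA

/-!
The sign of contours with insertions: the bound and the parity rule.
-/

namespace Vale.Agent.P144Z

open Finset Matrix I1 DH3

namespace ISecA

section Words

variable {S E : Type} [Fintype S] [DecidableEq S] [Fintype E] [DecidableEq E]

omit [Fintype S] in
theorem mo_append (l l' : List S) : mo (l ++ l') = mo l * mo l' := by simp [mo]

/-- The product of the edge monomials is a word in the ends of the edges. -/
theorem exists_word (a b : E → S) (n : E → Bool) : ∃ l : List S, Ev.val (mono a b n) = mo l ∧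
    ∀ t, t ∈ l ↔ ∃ e, n e = true ∧ (t = a e ∨ t = b e) := by
  have key : ∀ s : Finset E, ∃ l : List S, Ev.val (∏ e ∈ s, if n e then
      pp (Pi.single (a e) 1) (Pi.single (b e) 1) else 1) = mo l ∧
      ∀ t, t ∈ l ↔ ∃ e ∈ s, n e = true ∧ (t = a e ∨ t = b e) := by
    intro s
    induction s using Finset.induction_on with
    | empty => exact ⟨[], by simp [mo_nil], by simp⟩
    | insert e s he ih =>
      obtain ⟨l, h1, h2⟩ := ih
      rw [prod_insert he, map_mul, h1]
      cases hn : n e
      · refine ⟨l, by simp, fun t => ?_⟩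
        simp [h2, hn]
      · refine ⟨a e :: b e :: l, ?_, fun t => ?_⟩
        · rw [if_pos rfl, val_pp, mo_cons, mo_cons, mul_assoc]
          rfl
        · simp [h2, hn, or_assoc]
  obtain ⟨l, h1, h2⟩ := key univ
  exact ⟨l, h1, fun t => by simpa using h2 t⟩

theorem mo_perm {l l' : List S} (h : l.Perm l') : ∃ c : ℝ, |c| = 1 ∧ mo l = c • mo l' := by
  induction h with
  | nil => exact ⟨1, abs_one, (one_smul _ _).symm⟩
  | cons s _ ih =>
    obtain ⟨c, hc, h⟩ := ih
    exact ⟨c, hc, by rw [mo_cons, mo_cons, h, mul_smul_comm]⟩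
  | swap s t l =>
    exact ⟨-1, by simp, by rw [mo_cons, mo_cons, mo_cons, mo_cons, gen_swap, neg_one_smul]⟩
  | trans _ _ ih ih' =>
    obtain ⟨c, hc, h⟩ := ih
    obtain ⟨c', hc', h'⟩ := ih'
    exact ⟨c * c', by rw [abs_mul, hc, hc', one_mul], by rw [h, h', smul_smul]⟩

theorem map_mo (u : S → ℝ) (l : List S) :
    ExteriorAlgebra.map (mulL u) (mo l) = (l.map u).prod • mo l := by
  induction l with
  | nil => simp [mo_nil]
  | cons s l ih =>
    rw [mo_cons, map_mul, ih, List.map_cons, List.prod_cons, ← smul_mul_smul_comm, gen,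
      A1.map_psi, mulL_single, A1.psi_smul]

end Words

variable {M : ℕ} [NeZero M]

/-- The word of the insertions. -/
def wd {k : ℕ} (s : Fin k → Tor M × Fin 4) : List (SS M) := List.ofFn fun i => Sum.inl (s i)

theorem cwI_eq {k : ℕ} (s : Fin k → Tor M × Fin 4) (n : Tor M × Fin 2 → Bool) :
    cwI s n = om (G0 M) (Ev.val (mono ea eb n) * mo (wd s)) := by
  have e : (∏ e : Tor M × Fin 2, if n e then (geo0 M).edge e.1 e.2 else 1) = mono ea eb n := by
    refine Finset.prod_congr rfl fun e _ => ?_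
    split_ifs
    · exact one_smul ℝ _
    · rfl
  have e2 : (List.ofFn fun i => psi ((geo0 M).ex (Pi.single (s i) 1))).prod = mo (wd s) := by
    unfold mo wd
    rw [List.map_ofFn]
    refine congrArg (fun f => (List.ofFn f).prod) (funext fun i => ?_)
    exact congrArg psi (Sum.elim_single_zero (s i) (1 : ℝ))
  unfold cwI
  rw [e, e2]
  rfl

theorem om_mo (l : List (SS M)) : |om (G0 M) (mo l)| ≤ 1 := o0_mo (geo0 M) l

theorem abs_cwI {k : ℕ} (s : Fin k → Tor M × Fin 4) (n : Tor M × Fin 2 → Bool) :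
    |cwI s n| ≤ 1 := by
  obtain ⟨l, h, -⟩ := exists_word (ea (M := M)) eb n
  rw [cwI_eq, h, ← mo_append]
  exact om_mo _

theorem dgr_cwI {k : ℕ} {s : Fin k → Tor M × Fin 4} {n : Tor M × Fin 2 → Bool}
    (h : cwI s n ≠ 0) (z : Tor M) :
    dgr n z * ∏ i, (if (s i).1 = z then (-1 : ℝ) else 1) = 1 := by
  let σ : Tor M → Bool := tog z fun _ => false
  let u : SS M → ℝ := Sum.elim (fun s => sgn (σ s.1)) fun _ => 1
  have h1 := om_mulL (G0_anti (M := M)) u (by
    rintro (s | s) (t | t)
    · show sgn (σ s.1) * sgn (σ t.1) * (if s.1 = t.1 then gA s.2 t.2 else 0) =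
        (if s.1 = t.1 then gA s.2 t.2 else 0)
      split_ifs with h
      · rw [← h, sgn_mul_self, one_mul]
      · rw [mul_zero]
    all_goals exact mul_zero _) (Ev.val (mono ea eb n) * mo (wd s))
  have h3 : ((wd s).map u).prod = ∏ i, (if (s i).1 = z then (-1 : ℝ) else 1) := by
    unfold wd
    rw [List.map_ofFn, List.prod_ofFn]
    refine prod_congr rfl fun i _ => ?_
    simp [u, σ, tog, sgn]
  have h4 : (∏ e, if n e then u (ea e) * u (eb e) else 1) = dgr n z := by
    have := ends2_tog n z fun _ => false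
    rw [show ends2 n (fun _ => false) = 1 by simp [ends2, sgn], mul_one] at this
    exact this
  rw [map_mul, map_mono, map_mo, h3, h4, smul_mul_smul_comm, map_smul, smul_eq_mul,
    ← cwI_eq] at h1
  exact mul_right_cancel₀ h (h1.trans (one_mul _).symm)

theorem dgr_iff {k : ℕ} {s : Fin k → Tor M × Fin 4} {n : Tor M × Fin 2 → Bool}
    (hs : Function.Injective fun i => (s i).1) (h : cwI s n ≠ 0) (z : Tor M) :
    dgr n z = -1 ↔ ∃ i, z = (s i).1 := by
  have h1 := dgr_cwI h z
  by_cases hz : ∃ i, z = (s i).1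
  · obtain ⟨i, rfl⟩ := hz
    rw [Finset.prod_eq_single i (fun j _ hj => if_neg fun e => hj (hs e)) (by simp),
      if_pos rfl] at h1
    exact ⟨fun _ => ⟨i, rfl⟩, fun _ => by linarith⟩
  · rw [Finset.prod_eq_one fun j _ => if_neg fun e => hz ⟨j, e.symm⟩, mul_one] at h1
    refine ⟨fun h2 => ?_, fun h2 => (hz h2).elim⟩
    rw [h1] at h2
    norm_num at h2

end ISecA

/-- The sign of contours with insertions. -/
theorem cwStmt : CwStmt := fun _ _ _ s n hs =>
  ⟨ISecA.abs_cwI s n, fun h x => ISecA.dgr_iff hs h x⟩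

end Vale.Agent.P144Z
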