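import Vale.Agent.P144D.I.SecA.Cw

/-!
Contours with insertions are closed by the walls of the boundary condition.
-/

namespace Vale.Agent.P144Z.ISecA

open Finset Matrix I1 DH3

variable {M : ℕ}

/-- The walls of `β` on the removed edges. -/
def gm (I : Finset (Tor M)) (β : Tor M → Bool) (e : Tor M × Fin 2) : Bool :=
  dom β e && !decide (e.1 ∈ I ∨ oth e ∈ I)

theorem end_iff (t : SS M) (e : Tor M × Fin 2) :
    (t = ea e ∨ t = eb e) ↔ ∃ h, t = Sum.inl h ∧ hedge h = e := by
  obtain ⟨x, d⟩ := e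
  constructor
  · rintro (rfl | rfl)
    · exact ⟨_, rfl, by fin_cases d <;> simp [hedge]⟩
    · exact ⟨_, rfl, by fin_cases d <;> simp [hedge]⟩
  · rintro ⟨⟨y, a⟩, rfl, h⟩
    fin_cases a <;> simp only [hedge] at h <;> rw [← h] <;> simp [ea, eb]

theorem prj_cn (k : Fin 4) : prj M (cn k) = ![0, uv M 0, uv M 0 + uv M 1, uv M 1] k := by
  fin_cases k <;> simp [prj, cn, uv]

/-- The two faces of a half-edge. -/
theorem faces (y : Tor M) (a : Fin 4) :
    ((hedge (y, a)).1 = y - prj M (cn (a - 1)) ∧ oth (hedge (y, a)) = y - prj M (cn a)) ∨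
      ((hedge (y, a)).1 = y - prj M (cn a) ∧ oth (hedge (y, a)) = y - prj M (cn (a - 1))) := by
  fin_cases a
  · right
    simp [hedge, oth, prj_cn]
  · left
    simp [hedge, oth, prj_cn]
  · left
    simp [hedge, oth, prj_cn, sub_sub]
  · right
    simp [hedge, oth, prj_cn, sub_sub, add_comm]

theorem touch_of_pr {I : Finset (Tor M)} {h : Tor M × Fin 4}
    (hp : (hedge h).1 ∈ I ∨ oth (hedge h) ∈ I) : TouchT I h.1 := by
  obtain ⟨y, a⟩ := h
  rcases faces y a with ⟨h1, h2⟩ | ⟨h1, h2⟩ <;> rw [h1, h2] at hp <;> rcases hp with hp | hp <;>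
    exact ⟨_, hp⟩

theorem xor_gm (I : Finset (Tor M)) (β : Tor M → Bool) :
    (fun e => xor (nOf I β e) (gm I β e)) = dom β := by
  funext e
  unfold nOf gm
  cases dom β e <;> cases decide (e.1 ∈ I ∨ oth e ∈ I) <;> rfl

theorem nOf_pr {I : Finset (Tor M)} {β : Tor M → Bool} {e : Tor M × Fin 2}
    (h : nOf I β e = true) : e.1 ∈ I ∨ oth e ∈ I :=
  of_decide_eq_true (Bool.and_eq_true_iff.1 h).2

theorem gm_false {I : Finset (Tor M)} (β : Tor M → Bool) {e : Tor M × Fin 2}
    (h : e.1 ∈ I ∨ oth e ∈ I) : gm I β e = false := by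
  unfold gm
  rw [decide_eq_true h]
  simp

variable [NeZero M]

theorem mono_xor {n m : Tor M × Fin 2 → Bool} (h : ∀ e, n e = true → m e = false) :
    mono (ea (M := M)) eb (fun e => xor (n e) (m e)) = mono ea eb n * mono ea eb m := by
  unfold mono
  rw [← prod_mul_distrib]
  refine prod_congr rfl fun e _ => ?_
  have h1 := h e
  show (if xor (n e) (m e) then _ else _) = _
  revert h1
  cases n e <;> cases m e <;> simp

/-- The sign with insertions is the sign of the closed contour. -/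
theorem key (I : Finset (Tor M)) (β : Tor M → Bool) {k : ℕ} (s : Fin k → Tor M × Fin 4)
    (hs : Function.Injective s) (ht : ∀ i, TouchT I (s i).1)
    (hw : ∀ h : Tor M × Fin 4, TouchT I h.1 → (gm I β (hedge h) = true ↔ ∃ i, h = s i)) :
    ∃ κ : ℝ, |κ| = 1 ∧ ∀ n : Tor M × Fin 2 → Bool, (∀ e, n e = true → e.1 ∈ I ∨ oth e ∈ I) →
      cwI s n = κ * cw fun e => xor (n e) (gm I β e) := by
  classical
  obtain ⟨l, hl, hm⟩ := exists_word (ea (M := M)) eb (gm I β)
  have h0 : cw (fun e => xor (nOf I β e) (gm I β e)) = 1 := by rw [xor_gm, cw_dom]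
  have h1 : ∀ n : Tor M × Fin 2 → Bool, (∀ e, n e = true → e.1 ∈ I ∨ oth e ∈ I) →
      (cw fun e => xor (n e) (gm I β e)) = om (G0 M) (Ev.val (mono ea eb n) * mo l) := by
    intro n hn
    rw [cw_eq, mono_xor fun e he => gm_false β (hn e he), map_mul, hl]
  have hd : l.Nodup := by
    by_contra hd
    rw [h1 _ fun e => nOf_pr, mo_dup hd, mul_zero, map_zero] at h0
    exact zero_ne_one h0
  let p : SS M → Bool := fun t => decide (∃ h : Tor M × Fin 4, t = Sum.inl h ∧ TouchT I h.1)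
  obtain ⟨c, hc, e1⟩ := mo_split p l
  have hp : (l.filter p).Perm (wd s) := by
    refine (List.perm_ext_iff_of_nodup (hd.filter _) ?_).2 fun t => ?_
    · exact List.nodup_ofFn.2 fun i j e => hs (Sum.inl_injective e)
    · simp only [List.mem_filter, hm, end_iff, p, decide_eq_true_eq, wd, List.mem_ofFn]
      constructor
      · rintro ⟨⟨e, he, h, rfl, rfl⟩, h', e2, h2⟩
        obtain rfl := Sum.inl_injective e2
        obtain ⟨i, rfl⟩ := (hw h h2).1 he
        exact ⟨i, rfl⟩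
      · rintro ⟨i, rfl⟩
        exact ⟨⟨_, (hw _ (ht i)).2 ⟨i, rfl⟩, _, rfl, rfl⟩, _, rfl, ht i⟩
  obtain ⟨c', hc', e2⟩ := mo_perm hp
  set κ : ℝ := c * c' * om (G0 M) (mo (l.filter fun t => !p t)) with hκ
  have h2 : ∀ n : Tor M × Fin 2 → Bool, (∀ e, n e = true → e.1 ∈ I ∨ oth e ∈ I) →
      (cw fun e => xor (n e) (gm I β e)) = κ * cwI s n := by
    intro n hn
    have m1 : Ev.val (mono (ea (M := M)) eb n) ∈ loc {t | p t = true} := by
      refine prod_mem univ n fun e _ he => ⟨?_, ?_⟩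
      · obtain ⟨h, e3, rfl⟩ := (end_iff _ e).1 (Or.inl rfl)
        exact decide_eq_true ⟨h, e3, touch_of_pr (hn _ he)⟩
      · obtain ⟨h, e3, rfl⟩ := (end_iff _ e).1 (Or.inr rfl)
        exact decide_eq_true ⟨h, e3, touch_of_pr (hn _ he)⟩
    have m2 : mo (wd s) ∈ loc {t | p t = true} :=
      mo_mem fun t h => (List.mem_filter.1 (hp.mem_iff.2 h)).2
    rw [h1 n hn, e1, e2, smul_mul_assoc, smul_smul, mul_smul_comm, map_smul, ← mul_assoc,
      om_apply, gauss_mul G0_anti (T' := {t | p t = false}) ((loc _).mul_mem m1 m2)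
        (mo_mem fun t ht => by simpa using (List.mem_filter.1 ht).2), map_mul, cwI_eq, hκ,
      smul_eq_mul, om_apply, om_apply]
    · ring
    · intro t ht t' ht'
      obtain ⟨h, rfl, h3⟩ := of_decide_eq_true ht
      rcases t' with h' | t'
      · refine if_neg fun e : h.1 = h'.1 => ?_
        exact of_decide_eq_false ht' ⟨h', rfl, e ▸ h3⟩
      · rfl
  have hk : |κ| ≤ 1 := by
    rw [hκ, abs_mul, abs_mul, hc, hc', one_mul, one_mul]
    exact om_mo _
  have hk1 : |κ| = 1 := by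
    have h3 := congrArg abs (h0.symm.trans (h2 _ fun e => nOf_pr))
    rw [abs_one, abs_mul] at h3
    have h4 := abs_cwI s (nOf I β)
    nlinarith [abs_nonneg κ, abs_nonneg (cwI s (nOf I β))]
  refine ⟨κ, hk1, fun n hn => ?_⟩
  rw [h2 n hn, ← mul_assoc, ← abs_mul_abs_self, hk1, one_mul, one_mul]

end Vale.Agent.P144Z.ISecA
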